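import Vale.Agent.P248.Equal

namespace Vale.Agent.Results.P248.Equality

open MeasureTheory

/-- The symmetric Mahler conjecture with its equality cases, in every dimension. -/
theorem result : ∀ n : ℕ, 1 ≤ n → ∀ K : Set (Fin n → ℝ),
    IsCompact K → Convex ℝ K → (interior K).Nonempty → K = -K →
      (4 : ℝ) ^ n / (n.factorial : ℝ) ≤ (volume K).toReal *
          (volume {y : Fin n → ℝ | ∀ x ∈ K, ∑ i, y i * x i ≤ 1}).toReal ∧
        ((volume K).toReal * (volume {y : Fin n → ℝ | ∀ x ∈ K, ∑ i, y i * x i ≤ 1}).toReal =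
            (4 : ℝ) ^ n / (n.factorial : ℝ) ↔
          ∃ (T : (Fin n → ℝ) ≃ₗ[ℝ] (Fin n → ℝ)) (H : Set (Fin n → ℝ)),
            Vale.Agent.P248.IsHanner n H ∧ K = T '' H) := by
  intro n hn K hK hconv hint hsym
  have hsym' : ∀ x ∈ K, -x ∈ K := fun x hx => by
    rw [hsym]
    simpa using hx
  have hB : Vale.Agent.P248.Body K :=
    ⟨hK, hconv, hsym', Vale.Agent.P248.ball_subset hconv hint hsym'⟩
  have hf : (0 : ℝ) < n.factorial := by positivity
  have e : (volume K).toReal * (volume {y : Fin n → ℝ | ∀ x ∈ K, ∑ i, y i * x i ≤ 1}).toReal =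
      Vale.Agent.P248.mv K / n.factorial := by
    rw [eq_div_iff hf.ne', mul_comm]
    rfl
  rw [e]
  refine ⟨div_le_div_of_nonneg_right (hB.le_mv hn) hf.le, fun h => ?_, fun h => ?_⟩
  · exact hB.linH hn ((div_left_inj' hf.ne').1 h).le
  · rw [Vale.Agent.P248.LinH.mv_eq h]

end Vale.Agent.Results.P248.Equality
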