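import Vale.Agent.P248.Main

namespace Vale.Agent.Results.P248.Symmetric

open MeasureTheory

/-- The symmetric Mahler inequality in every dimension. -/
theorem result : ∀ n : ℕ, 1 ≤ n → ∀ K : Set (EuclideanSpace ℝ (Fin n)),
    IsCompact K → Convex ℝ K → (interior K).Nonempty → K = -K →
      (4 : ℝ) ^ n / (n.factorial : ℝ) ≤ (volume K).toReal *
        (volume {y : EuclideanSpace ℝ (Fin n) | ∀ x ∈ K, inner ℝ y x ≤ 1}).toReal := by
  intro n hn K hK hconv hint hsym
  let e : (Fin n → ℝ) ≃L[ℝ] EuclideanSpace ℝ (Fin n) := (EuclideanSpace.equiv (Fin n) ℝ).symm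
  have hK' : IsCompact (e ⁻¹' K) := e.toHomeomorph.isCompact_preimage.2 hK
  have hconv' : Convex ℝ (e ⁻¹' K) := hconv.linear_preimage e.toLinearEquiv.toLinearMap
  have hint' : (interior (e ⁻¹' K)).Nonempty := by
    obtain ⟨a, ha⟩ := hint
    refine ⟨e.symm a, ?_⟩
    have := e.toHomeomorph.preimage_interior K
    rw [ContinuousLinearEquiv.coe_toHomeomorph] at this
    rw [← this]
    simpa using ha
  have hsym' : ∀ x ∈ e ⁻¹' K, -x ∈ e ⁻¹' K := by
    intro x hx
    rw [Set.mem_preimage, map_neg, hsym]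
    simpa using hx
  have h := Vale.Agent.P248.mahler_pi hn hK' hconv' hint' hsym'
  have hp : Vale.Agent.P248.dotPolar (e ⁻¹' K)
      = e ⁻¹' {y : EuclideanSpace ℝ (Fin n) | ∀ x ∈ K, inner ℝ y x ≤ 1} := by
    have hi : ∀ y x : Fin n → ℝ, inner ℝ (e y) (e x) = dotProduct y x := by
      intro y x
      rw [dotProduct_comm]
      exact EuclideanSpace.inner_toLp_toLp y x
    ext y
    constructor
    · intro hy x hx
      have := hy (e.symm x) (by simpa using hx)
      rwa [← hi, e.apply_symm_apply] at this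
    · intro hy x hx
      rw [← hi]
      exact hy (e x) hx
  have hv : ∀ s : Set (EuclideanSpace ℝ (Fin n)), volume (e ⁻¹' s) = volume s := fun s =>
    MeasurePreserving.measure_preimage_equiv (f := MeasurableEquiv.toLp 2 (Fin n → ℝ))
      (PiLp.volume_preserving_toLp (Fin n)) s
  rw [hp, hv, hv] at h
  rw [div_le_iff₀ (by positivity), mul_comm]
  exact h

end Vale.Agent.Results.P248.Symmetric
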